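import Vale.Agent.P251EJ.PlugS
import Vale.Agent.P251EJ78.OddB
import Vale.Agent.P251EJ78.EvenB
import Vale.Agent.P251EJ18.Tra
import Vale.Agent.P251EJ32.Out
import Vale.Agent.P251EJ70.Asm
import Vale.Agent.P251EJ2.Tau
import Vale.Agent.P257CY.Br

/-!
# The homotopy of the Brown-Peterson spectrum is `ℤ_(p)[v_1, v_2, …]`
-/

open CategoryTheory MonoidalCategory Limits Pretriangulated MonObj

set_option linter.unusedSectionVars false

noncomputable section

namespace Vale.Agent.P257EJ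

open Vale.Agent.P251 Vale.Agent.P251.I Vale.Agent.P251.T Vale.Agent.P251.M Vale.Agent.P251.St
  Vale.Agent.P251.F Vale.Agent.P257.H702 Vale.Agent.P257.St Vale.Agent.P251EJ
  Vale.Agent.P257.H80 Vale.Agent.P221.H246 Vale.Agent.P221.T.H520 Vale.Agent.P221X.EXI
open Vale.Agent.P251.M.EvenSpheres

theorem hK_neg {p : ℕ} [Fact p.Prime] {d : ℤ} (hd : d < 0) {c : K0 p} (h : hK p d c) : c = 0 := by
  by_contra h0
  obtain ⟨m, hm⟩ := MvPolynomial.ne_zero_iff.1 h0
  have h1 := h hm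
  have h2 : 0 ≤ Finsupp.weight (wz p) m := by
    rw [Finsupp.weight_apply]
    exact Finset.sum_nonneg fun i _ => nsmul_nonneg (Int.natCast_nonneg _) _
  omega

theorem int_inj (p : ℕ) [Fact p.Prime] : Function.Injective (Int.castRingHom (Z0 p)) := by
  have h : Function.Injective (algebraMap ℤ (Localization (Zs p))) :=
    IsLocalization.injective (M := Zs p) _ (fun z (hz : ¬ (p : ℤ) ∣ z) =>
      mem_nonZeroDivisors_of_ne_zero fun h0 => hz (by rw [h0]; exact dvd_zero _))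
  have h2 : (algebraMap ℤ (Localization (Zs p)) : ℤ →+* Z0 p) = Int.castRingHom (Z0 p) :=
    RingHom.ext_int _ _
  exact h2 ▸ h

variable {T : SHCat} {S : Susp T} {p : ℕ} [hp : Fact p.Prime]

theorem coef {B : RingSp T} {o : St.Oriented S B} {φ : GHom S p B} (h : IsBrownPeterson p o φ) :
    (∀ (k : ℤ) (f : (𝟙_ T.C)⟦k⟧ ⟶ B.obj), Odd k ∨ k < 0 → f = 0) ∧
    (∀ (k : ℕ) (y : S.obj (St.Cn k) ⟶ B.obj), ∃ (m : ℤ) (x : VPoly p k), ¬ (p : ℤ) ∣ m ∧
      m • y = φ k x) ∧ ∀ (k : ℕ) (x : VPoly p k), φ k x = 0 → x = 0 := by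
  classical
  obtain ⟨D, hD, hA, ⟨U⟩⟩ := P251EJ70.exists_mu S.toSpaceFunctor (M.lineIso S.toSpaceFunctor)
  obtain ⟨u, hu, ho⟩ := U.exists_mapS o
  obtain ⟨Φ, hΦ, hlaw⟩ := exists_hom h.typ
  have hb := isBPMon_of_isBrownPeterson ptypOut hD U ptypIn h ho
  have h1 : lawOf u = (haz p).map Φ := by rw [← hlaw, U.lawS_eq ho]; rfl
  have hS := serre S.toSpaceFunctor
  have hodd := P251EJ78.oddB T.C _ _ D p B.obj u hS hD hA hb
  have hev := P251EJ78.evenB T.C _ _ D p B.obj u hb Φ hS hD hA h1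
  have hmap : ∀ x, PhiT (ell hb) Φ (MvPolynomial.map (Int.castRingHom (Z0 p)) x) = Φ x := by
    intro x
    have h2 : (PhiT (ell hb) Φ).comp (MvPolynomial.map (Int.castRingHom (Z0 p))) = Φ := by
      apply MvPolynomial.ringHom_ext
      · intro r
        simp
      · intro i
        rw [RingHom.comp_apply, MvPolynomial.map_X, PhiT_X]
    exact congrArg (fun f : _ →+* _ => f x) h2
  refine ⟨fun k f hk => ?_, fun k y => ?_, fun k x hx => ?_⟩
  · rcases Int.even_or_odd' k with ⟨j, rfl | rfl⟩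
    · have hj : j < 0 := by
        rcases hk with ⟨i, hi⟩ | hk <;> omega
      obtain ⟨c, hc⟩ := hev.2 (HRing.of (stdEven T.C) B.obj j ((stdSph j).hom ≫ f))
      have h3 := hK_neg hj (P251EJ18.hK_of_isHomog hb h1 hev.1 (c := c) ⟨_, hc⟩)
      rw [h3, map_zero] at hc
      rw [← cancel_epi (stdSph j).hom, P221.H746.of_eq_zero hc.symm, comp_zero]
    · exact hodd _ ⟨j, rfl⟩ f
  · obtain ⟨c, hc⟩ := hev.2 (cls S B k y)
    obtain ⟨m, x, hm, hx⟩ := P251EJ2.K0_exists_mul p c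
    refine ⟨m, DirectSum.decompose (VP p) x k, fun h => hm (Int.natCast_dvd_natCast.1 h), ?_⟩
    have h4 : Φ x = cls S B k ((m : ℤ) • y) := by
      rw [← hmap, ← hx, map_mul, map_natCast, hc, map_zsmul, zsmul_eq_mul, Int.cast_natCast]
    have h5 := P251Z.component hΦ x k
    rw [h4, cls_apply] at h5
    rw [← cancel_epi (isoE S k).inv, ← h5]
    exact (DirectSum.of_eq_same (β := (stdEven T.C).Gr B.obj) _ _).symm
  · have h2 : Φ x = 0 := by
      rw [hΦ, hx, comp_zero]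
      exact map_zero (DirectSum.of ((stdEven T.C).Gr B.obj) (k : ℤ))
    rw [← hmap, map_eq_zero_iff _ hev.1,
      map_eq_zero_iff _ (MvPolynomial.map_injective _ (int_inj p))] at h2
    exact Subtype.ext h2

omit hp in
/-- **`π_* BP = ℤ_(p)[v_1, v_2, …]`**, in the compact language. -/
theorem coef' (hp : p.Prime) (B : P251CY.RingSp T) (o : P251CY.Oriented S B)
    (φ : P251CY.GHom S p B) (h : P251CY.V.IsBrownPeterson p o φ) :
    (∀ (k : ℤ) (f : SHCat.Hom (P251CY.sphere T k) B.obj), Odd k ∨ k < 0 → f = P251CY.nul _ _) ∧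
    (∀ (k : ℕ) (y : P251CY.PiR S B k), ∃ (m : ℤ) (x : P251CY.VPoly p k), ¬ (p : ℤ) ∣ m ∧
      P251CY.zmul m y = φ.val x) ∧
    ∀ (k : ℕ) (x : P251CY.VPoly p k), φ.val x = P251CY.nul _ _ → x.pol = 0 := by
  have : Fact p.Prime := ⟨hp⟩
  obtain ⟨h1, h2, h3⟩ := coef ((P251CY.V.isBrownPeterson_iff _ _ _).1 h)
  exact ⟨h1, h2, fun k x hx => congrArg Subtype.val (h3 k x hx)⟩

end Vale.Agent.P257EJ
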